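import Mathlib

open Finset

namespace Vale.Agent.Results.P047.Exponent

/-- The real number `+1` or `-1` attached to a sign. -/
def sg (u : ℤˣ) : ℝ := ((u : ℤ) : ℝ)

section defs
variable {ι : Type} [Fintype ι] [DecidableEq ι]

/-- Fourier coefficient `E[f(X) ∏_{i ∈ S} X_i]` of a Boolean function
`f : {-1,1}^ι → {-1,1}`, for `X` uniform on the cube. -/
noncomputable def coeff (f : (ι → ℤˣ) → ℤˣ) (S : Finset ι) : ℝ :=
  (∑ x : ι → ℤˣ, sg (f x) * ∏ i ∈ S, sg (x i)) / 2 ^ Fintype.card ι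

/-- Degree: the largest size of a set whose Fourier coefficient does not vanish. -/
noncomputable def fdeg (f : (ι → ℤˣ) → ℤˣ) : ℕ :=
  (univ.filter (fun S : Finset ι => coeff f S ≠ 0)).sup Finset.card

/-- Level-one sum: the sum of the Fourier coefficients at singletons. -/
noncomputable def levelOne (f : (ι → ℤˣ) → ℤˣ) : ℝ := ∑ i, coeff f {i}

end defs

section basics

lemma sg_one : sg 1 = 1 := by simp [sg]
lemma sg_neg (u : ℤˣ) : sg (-u) = - sg u := by simp [sg]
lemma sg_mul (u v : ℤˣ) : sg (u * v) = sg u * sg v := by simp [sg]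
lemma sg_cases (u : ℤˣ) : sg u = 1 ∨ sg u = -1 := by
  rcases Int.units_eq_one_or u with h | h <;> simp [sg, h]
lemma sg_sq (u : ℤˣ) : sg u * sg u = 1 := by rcases sg_cases u with h | h <;> simp [h]
lemma sum_sg : ∑ u : ℤˣ, sg u = 0 := by
  have : (Finset.univ : Finset ℤˣ) = {1, -1} := by decide
  rw [this]; simp [sg]
lemma card_units : Fintype.card ℤˣ = 2 := by decide

variable {ι : Type} [Fintype ι] [DecidableEq ι]

/-- expectation under the uniform measure -/
noncomputable def E (g : (ι → ℤˣ) → ℝ) : ℝ := (∑ x, g x) / 2 ^ Fintype.card ι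

def chi (S : Finset ι) (x : ι → ℤˣ) : ℝ := ∏ i ∈ S, sg (x i)

lemma E_add (g h : (ι → ℤˣ) → ℝ) : E (fun x => g x + h x) = E g + E h := by
  unfold E; rw [Finset.sum_add_distrib, add_div]
lemma E_smul (c : ℝ) (g : (ι → ℤˣ) → ℝ) : E (fun x => c * g x) = c * E g := by
  unfold E; rw [← Finset.mul_sum, mul_div_assoc]
lemma E_sum {κ : Type*} (s : Finset κ) (g : κ → (ι → ℤˣ) → ℝ) :
    E (fun x => ∑ k ∈ s, g k x) = ∑ k ∈ s, E (g k) := by
  unfold E; rw [Finset.sum_comm, Finset.sum_div]
lemma E_const (c : ℝ) : E (fun _ : ι → ℤˣ => c) = c := by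
  unfold E; simp
lemma E_mono {g h : (ι → ℤˣ) → ℝ} (hgh : ∀ x, g x ≤ h x) : E g ≤ E h := by
  unfold E; gcongr with x; exact hgh x

lemma coeff_eq (f : (ι → ℤˣ) → ℤˣ) (S : Finset ι) :
    coeff f S = E (fun x => sg (f x) * chi S x) := rfl

/-- expectation of a product of functions of distinct coordinates -/
lemma E_prod (φ : ι → ℤˣ → ℝ) : E (fun x => ∏ i, φ i (x i)) = ∏ i, ((∑ u, φ i u) / 2) := by
  unfold E
  rw [← Fintype.piFinset_univ, ← Finset.prod_univ_sum, Finset.prod_div_distrib]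
  simp

lemma E_chi (S : Finset ι) : E (chi S) = if S = ∅ then 1 else 0 := by
  split_ifs with h
  · subst h
    have : chi (∅ : Finset ι) = fun _ => (1:ℝ) := by funext x; simp [chi]
    rw [this, E_const]
  · have h1 : chi S = fun x : ι → ℤˣ => ∏ i, (if i ∈ S then sg (x i) else 1) := by
      funext x; simp [chi, Finset.prod_ite_mem]
    rw [h1, E_prod (fun i u => if i ∈ S then sg u else 1)]
    obtain ⟨i, hi⟩ := Finset.nonempty_iff_ne_empty.mpr h
    apply Finset.prod_eq_zero (Finset.mem_univ i)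
    simp [hi, sg]

lemma chi_mul (S T : Finset ι) (x : ι → ℤˣ) : chi S x * chi T x = chi (symmDiff S T) x := by
  have h : ∀ U : Finset ι, chi U x = ∏ i, (if i ∈ U then sg (x i) else 1) := by
    intro U; simp [chi, Finset.prod_ite_mem]
  rw [h S, h T, h (symmDiff S T), ← Finset.prod_mul_distrib]
  apply Finset.prod_congr rfl
  intro i _
  by_cases hS : i ∈ S <;> by_cases hT : i ∈ T <;> simp [Finset.mem_symmDiff, hS, hT, sg_sq]

lemma E_chi_mul (S T : Finset ι) : E (fun x => chi S x * chi T x) = if S = T then 1 else 0 := by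
  have : (fun x : ι → ℤˣ => chi S x * chi T x) = chi (symmDiff S T) := by
    funext x; exact chi_mul S T x
  rw [this, E_chi]
  congr 1
  simp [symmDiff_eq_bot, ← Finset.bot_eq_empty]

/-- inversion -/
lemma fourier (g : (ι → ℤˣ) → ℝ) (x : ι → ℤˣ) :
    g x = ∑ S : Finset ι, E (fun y => g y * chi S y) * chi S x := by
  have key : ∀ y : ι → ℤˣ, ∑ S : Finset ι, chi S y * chi S x = if y = x then 2 ^ Fintype.card ι else 0 := by
    intro y
    have h1 : ∑ S : Finset ι, chi S y * chi S x = ∏ i, (1 + sg (y i) * sg (x i)) := by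
      rw [Finset.prod_one_add, Finset.powerset_univ]
      apply Finset.sum_congr rfl
      intro S _
      simp [chi, Finset.prod_mul_distrib]
    rw [h1]
    split_ifs with h
    · subst h
      simp only [sg_sq]
      norm_num
    · obtain ⟨i, hi⟩ := Function.ne_iff.mp h
      apply Finset.prod_eq_zero (Finset.mem_univ i)
      have hne : y i ≠ x i := hi
      rcases Int.units_eq_one_or (y i) with h1 | h1 <;> rcases Int.units_eq_one_or (x i) with h2 | h2
      · exact absurd (h1.trans h2.symm) hne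
      · simp [h1, h2, sg]
      · simp [h1, h2, sg]
      · exact absurd (h1.trans h2.symm) hne
  unfold E
  have : ∑ S : Finset ι, (∑ y, g y * chi S y) / 2 ^ Fintype.card ι * chi S x
      = (∑ y, g y * (∑ S : Finset ι, chi S y * chi S x)) / 2 ^ Fintype.card ι := by
    rw [Finset.sum_div]
    simp only [Finset.sum_div, Finset.mul_sum, Finset.sum_mul]
    rw [Finset.sum_comm]
    apply Finset.sum_congr rfl; intro y _
    apply Finset.sum_congr rfl; intro S _
    ring
  rw [this]
  simp only [key]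
  simp

lemma parseval (g : (ι → ℤˣ) → ℝ) :
    E (fun x => g x * g x) = ∑ S : Finset ι, (E (fun y => g y * chi S y)) ^ 2 := by
  have h1 : (fun x => g x * g x) = fun x => ∑ S : Finset ι, E (fun y => g y * chi S y) * (g x * chi S x) := by
    funext x
    conv_lhs => rw [fourier g x]
    rw [← fourier g x, Finset.sum_congr rfl (fun S _ => by ring : ∀ S ∈ (univ : Finset (Finset ι)), E (fun y => g y * chi S y) * (g x * chi S x) = g x * (E (fun y => g y * chi S y) * chi S x)), ← Finset.mul_sum, ← fourier g x]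
  rw [h1, E_sum]
  apply Finset.sum_congr rfl; intro S _
  rw [E_smul]; ring

end basics

section span
variable {ι : Type} [Fintype ι] [DecidableEq ι]

/-- span of the characters of degree at most `d` -/
def V (ι : Type) [Fintype ι] [DecidableEq ι] (d : ℕ) : Submodule ℝ ((ι → ℤˣ) → ℝ) :=
  Submodule.span ℝ {g | ∃ S : Finset ι, S.card ≤ d ∧ g = chi S}

lemma chi_mem {S : Finset ι} {d : ℕ} (h : S.card ≤ d) : chi S ∈ V ι d :=
  Submodule.subset_span ⟨S, h, rfl⟩

lemma V_mono {a b : ℕ} (h : a ≤ b) : V ι a ≤ V ι b := by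
  apply Submodule.span_mono
  rintro g ⟨S, hS, rfl⟩
  exact ⟨S, hS.trans h, rfl⟩

lemma V_mul {a b : ℕ} {g h : (ι → ℤˣ) → ℝ} (hg : g ∈ V ι a) (hh : h ∈ V ι b) :
    (fun x => g x * h x) ∈ V ι (a + b) := by
  have key : V ι a * V ι b ≤ V ι (a + b) := by
    unfold V
    rw [Submodule.span_mul_span]
    apply Submodule.span_mono
    rintro _ ⟨_, ⟨S, hS, rfl⟩, _, ⟨T, hT, rfl⟩, rfl⟩
    refine ⟨symmDiff S T, ?_, ?_⟩
    · calc (symmDiff S T).card ≤ (S ∪ T).card := Finset.card_le_card (by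
            intro i hi; rw [Finset.mem_symmDiff] at hi; rw [Finset.mem_union]; tauto)
        _ ≤ S.card + T.card := Finset.card_union_le _ _
        _ ≤ a + b := by omega
    · funext x; exact chi_mul S T x
  exact key (Submodule.mul_mem_mul hg hh)

lemma V_prod {κ : Type*} (s : Finset κ) (g : κ → (ι → ℤˣ) → ℝ) {D : ℕ} (hg : ∀ k ∈ s, g k ∈ V ι D) :
    (fun x => ∏ k ∈ s, g k x) ∈ V ι (s.card * D) := by
  classical
  induction s using Finset.induction_on with
  | empty =>
    have : (fun x : ι → ℤˣ => ∏ k ∈ (∅ : Finset κ), g k x) = chi (∅ : Finset ι) := by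
      funext x; simp [chi]
    rw [this]; exact chi_mem (by simp)
  | insert a s ha ih =>
    have h1 := V_mul (hg a (Finset.mem_insert_self a s)) (ih (fun k hk => hg k (Finset.mem_insert_of_mem hk)))
    have h2 : (fun x => ∏ k ∈ insert a s, g k x) = fun x => g a x * ∏ k ∈ s, g k x := by
      funext x; rw [Finset.prod_insert ha]
    rw [h2, Finset.card_insert_of_notMem ha]
    have h3 : D + s.card * D = (s.card + 1) * D := by ring
    rw [← h3]; exact h1

lemma V_lift {κ : Type} [Fintype κ] [DecidableEq κ] (e : κ ↪ ι) {D : ℕ} {h : (κ → ℤˣ) → ℝ}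
    (hh : h ∈ V κ D) : (fun x : ι → ℤˣ => h (fun k => x (e k))) ∈ V ι D := by
  unfold V at hh
  induction hh using Submodule.span_induction with
  | mem g hg =>
    obtain ⟨S, hS, rfl⟩ := hg
    have : (fun x : ι → ℤˣ => chi S (fun k => x (e k))) = chi (S.map e) := by
      funext x; simp [chi]
    rw [this]; exact chi_mem (by simpa using hS)
  | zero => exact (V ι D).zero_mem
  | add g1 g2 _ _ h1 h2 => exact (V ι D).add_mem h1 h2
  | smul c g _ h1 => exact (V ι D).smul_mem c h1

lemma coeff_zero_of_mem {d : ℕ} {g : (ι → ℤˣ) → ℝ} (hg : g ∈ V ι d) {S : Finset ι} (hS : d < S.card) :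
    E (fun x => g x * chi S x) = 0 := by
  unfold V at hg
  induction hg using Submodule.span_induction with
  | mem g hg =>
    obtain ⟨T, hT, rfl⟩ := hg
    rw [E_chi_mul, if_neg]
    rintro rfl; omega
  | zero =>
    have : (fun x : ι → ℤˣ => (0 : (ι → ℤˣ) → ℝ) x * chi S x) = fun _ => (0:ℝ) := by funext x; simp
    rw [this, E_const]
  | add g1 g2 _ _ h1 h2 =>
    have : (fun x : ι → ℤˣ => (g1 + g2) x * chi S x) = fun x => g1 x * chi S x + g2 x * chi S x := by
      funext x; simp [add_mul]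
    rw [this, E_add, h1, h2, add_zero]
  | smul c g _ h1 =>
    have : (fun x : ι → ℤˣ => (c • g) x * chi S x) = fun x => c * (g x * chi S x) := by
      funext x; simp [mul_assoc]
    rw [this, E_smul, h1, mul_zero]

lemma mem_of_coeff_zero {d : ℕ} {g : (ι → ℤˣ) → ℝ}
    (hg : ∀ S : Finset ι, d < S.card → E (fun x => g x * chi S x) = 0) : g ∈ V ι d := by
  have : g = ∑ S : Finset ι, E (fun y => g y * chi S y) • chi S := by
    funext x
    rw [Finset.sum_apply]
    simpa using fourier g x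
  rw [this]
  apply Submodule.sum_mem
  intro S _
  by_cases h : d < S.card
  · rw [hg S h, zero_smul]; exact Submodule.zero_mem _
  · exact Submodule.smul_mem _ _ (chi_mem (by omega))

lemma fdeg_le_iff (f : (ι → ℤˣ) → ℤˣ) (d : ℕ) : fdeg f ≤ d ↔ (fun x => sg (f x)) ∈ V ι d := by
  unfold fdeg
  rw [Finset.sup_le_iff]
  constructor
  · intro h
    apply mem_of_coeff_zero
    intro S hS
    by_contra hne
    have := h S (Finset.mem_filter.mpr ⟨Finset.mem_univ _, hne⟩)
    omega
  · intro h S hS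
    by_contra hlt
    push Not at hlt
    exact (by simpa using hS : coeff f S ≠ 0) (coeff_zero_of_mem h hlt)

end span

section compose
variable {ι κ : Type} [Fintype ι] [DecidableEq ι] [Fintype κ] [DecidableEq κ]

/-- the composed, balanced function -/
def comp (f : (ι → ℤˣ) → ℤˣ) (h : (κ → ℤˣ) → ℤˣ) (x : Option (ι × κ) → ℤˣ) : ℤˣ :=
  if x none = 1 then f (fun i => h (fun j => x (some (i, j))))
  else - f (fun i => - h (fun j => x (some (i, j))))

lemma chi_neg (S : Finset ι) (z : ι → ℤˣ) : chi S (fun i => - z i) = (-1) ^ S.card * chi S z := by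
  unfold chi
  simp only [sg_neg]
  rw [← Finset.prod_const, ← Finset.prod_mul_distrib]
  apply Finset.prod_congr rfl; intro i _; ring

lemma comp_expand (f : (ι → ℤˣ) → ℤˣ) (h : (κ → ℤˣ) → ℤˣ) (x : Option (ι × κ) → ℤˣ) :
    sg (comp f h x) = ∑ S : Finset ι, coeff f S *
      ((if Even S.card then sg (x none) else 1) * ∏ i ∈ S, sg (h (fun j => x (some (i, j))))) := by
  set z : ι → ℤˣ := fun i => h (fun j => x (some (i, j))) with hz
  have hchi : ∀ S : Finset ι, ∏ i ∈ S, sg (h (fun j => x (some (i, j)))) = chi S z := fun S => rfl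
  simp only [hchi]
  unfold comp
  have hf : ∀ y, sg (f y) = ∑ S : Finset ι, coeff f S * chi S y := fun y => fourier (fun y => sg (f y)) y
  rcases Int.units_eq_one_or (x none) with h1 | h1
  · rw [if_pos h1, hf]
    apply Finset.sum_congr rfl; intro S _
    simp [h1, sg_one, hz]
  · have hne : ¬ ((-1 : ℤˣ) = 1) := by decide
    rw [h1, if_neg hne, sg_neg, hf, ← Finset.sum_neg_distrib]
    apply Finset.sum_congr rfl; intro S _
    have : chi S (fun i => - h (fun j => x (some (i, j)))) = (-1) ^ S.card * chi S z := chi_neg S z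
    rw [this]
    by_cases he : Even S.card
    · simp [he, he.neg_one_pow, sg]
    · simp [he, (Nat.not_even_iff_odd.mp he).neg_one_pow]

lemma comp_mem (f : (ι → ℤˣ) → ℤˣ) (h : (κ → ℤˣ) → ℤˣ) {d D : ℕ} (hf : fdeg f ≤ d) (hh : fdeg h ≤ D) :
    fdeg (comp f h) ≤ d * D + 1 := by
  rw [fdeg_le_iff]
  have hx : (fun x => sg (comp f h x)) = ∑ S : Finset ι, coeff f S •
      (fun x : Option (ι × κ) → ℤˣ => (if Even S.card then sg (x none) else 1) *
        ∏ i ∈ S, sg (h (fun j => x (some (i, j))))) := by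
    funext x
    rw [comp_expand, Finset.sum_apply]
    rfl
  rw [hx]
  apply Submodule.sum_mem
  intro S _
  by_cases hS : coeff f S = 0
  · rw [hS, zero_smul]; exact Submodule.zero_mem _
  · apply Submodule.smul_mem
    have hcard : S.card ≤ d := by
      by_contra hlt
      push Not at hlt
      exact hS (coeff_zero_of_mem ((fdeg_le_iff f d).mp hf) hlt)
    have h1 : (fun x : Option (ι × κ) → ℤˣ => if Even S.card then sg (x none) else 1) ∈ V (Option (ι × κ)) 1 := by
      by_cases he : Even S.card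
      · have : (fun x : Option (ι × κ) → ℤˣ => if Even S.card then sg (x none) else 1) = chi {none} := by
          funext x; simp [he, chi]
        rw [this]; exact chi_mem (by simp)
      · have : (fun x : Option (ι × κ) → ℤˣ => if Even S.card then sg (x none) else 1) = chi ∅ := by
          funext x; simp [he, chi]
        rw [this]; exact chi_mem (by simp)
    have h2 : (fun x : Option (ι × κ) → ℤˣ => ∏ i ∈ S, sg (h (fun j => x (some (i, j))))) ∈
        V (Option (ι × κ)) (S.card * D) := by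
      apply V_prod S (fun i x => sg (h (fun j => x (some (i, j)))))
      intro i _
      exact V_lift (ι := Option (ι × κ)) (κ := κ)
        ⟨fun j => some (i, j), fun a b hab => by simpa using hab⟩ ((fdeg_le_iff h D).mp hh)
    have h3 := V_mul h1 h2
    refine V_mono ?_ h3
    have : S.card * D ≤ d * D := Nat.mul_le_mul_right D hcard
    omega

/-- splitting the cube -/
def splitEquiv (ι κ : Type) : (Option (ι × κ) → ℤˣ) ≃ ℤˣ × (ι → κ → ℤˣ) :=
  (Equiv.piOptionEquivProd (β := fun _ : Option (ι × κ) => ℤˣ)).trans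
    ((Equiv.refl _).prodCongr (Equiv.curry ι κ ℤˣ))

lemma E_split (F : ℤˣ → (ι → κ → ℤˣ) → ℝ) :
    E (fun x : Option (ι × κ) → ℤˣ => F (x none) (fun i j => x (some (i, j)))) =
      (∑ b, ∑ y : ι → κ → ℤˣ, F b y) / (2 * (2 ^ Fintype.card κ) ^ Fintype.card ι) := by
  unfold E
  have h1 : ∑ x : Option (ι × κ) → ℤˣ, F (x none) (fun i j => x (some (i, j))) = ∑ b, ∑ y : ι → κ → ℤˣ, F b y := by
    rw [← Fintype.sum_prod_type' (f := F)]
    exact Fintype.sum_equiv (splitEquiv ι κ) _ _ (fun x => rfl)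
  rw [h1]
  congr 1
  rw [Fintype.card_option, Fintype.card_prod, pow_succ, mul_comm (Fintype.card ι), pow_mul]
  ring

/-- product formula on the block cube -/
lemma E_block (c : ℤˣ → ℝ) (φ : ι → (κ → ℤˣ) → ℝ) :
    E (fun x : Option (ι × κ) → ℤˣ => c (x none) * ∏ i, φ i (fun j => x (some (i, j)))) =
      ((∑ b, c b) / 2) * ∏ i, E (φ i) := by
  rw [E_split (fun b y => c b * ∏ i, φ i (y i))]
  simp only [← Finset.mul_sum, ← Finset.sum_mul]
  have h2 : ∑ y : ι → κ → ℤˣ, ∏ i, φ i (y i) = ∏ i, ∑ z, φ i z := by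
    rw [Finset.prod_univ_sum, Fintype.piFinset_univ]
  rw [h2]
  unfold E
  rw [Finset.prod_div_distrib, Finset.prod_const, Finset.card_univ]
  field_simp

/-- mean of a Boolean function -/
noncomputable def mean {ι : Type} [Fintype ι] [DecidableEq ι] (f : (ι → ℤˣ) → ℤˣ) : ℝ :=
  E (fun x => sg (f x))

lemma coeff_empty {ι : Type} [Fintype ι] [DecidableEq ι] (f : (ι → ℤˣ) → ℤˣ) : coeff f ∅ = mean f := by
  rw [coeff_eq]; unfold mean; congr 1; funext x; simp [chi]

/-- the general term of `E[comp f h * (b-part) * (block part)]` -/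
lemma E_comp_mul (f : (ι → ℤˣ) → ℤˣ) (h : (κ → ℤˣ) → ℤˣ) (c : ℤˣ → ℝ) (φ : ι → (κ → ℤˣ) → ℝ) :
    E (fun x : Option (ι × κ) → ℤˣ => sg (comp f h x) * (c (x none) * ∏ i, φ i (fun j => x (some (i, j))))) =
      ∑ S : Finset ι, coeff f S * (((∑ b, (if Even S.card then sg b else 1) * c b) / 2) *
        ∏ i, E (fun z : κ → ℤˣ => (if i ∈ S then sg (h z) else 1) * φ i z)) := by
  have h1 : (fun x : Option (ι × κ) → ℤˣ => sg (comp f h x) * (c (x none) * ∏ i, φ i (fun j => x (some (i, j))))) =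
      fun x => ∑ S : Finset ι, coeff f S * (((if Even S.card then sg (x none) else 1) * c (x none)) *
        ∏ i, ((fun (i : ι) (z : κ → ℤˣ) => (if i ∈ S then sg (h z) else 1) * φ i z) i (fun j => x (some (i, j))))) := by
    funext x
    rw [comp_expand, Finset.sum_mul]
    apply Finset.sum_congr rfl; intro S _
    have h2 : ∏ i ∈ S, sg (h (fun j => x (some (i, j)))) =
        ∏ i, (if i ∈ S then sg (h (fun j => x (some (i, j)))) else 1) := by
      simp [Finset.prod_ite_mem]
    rw [h2]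
    simp only [Finset.prod_mul_distrib]
    ring
  rw [h1, E_sum]
  apply Finset.sum_congr rfl; intro S _
  rw [E_smul]
  congr 1
  exact E_block (ι := ι) (κ := κ) (fun b => (if Even S.card then sg b else 1) * c b)
    (fun (i : ι) (z : κ → ℤˣ) => (if i ∈ S then sg (h z) else 1) * φ i z)

lemma sum_sg_sq : ∑ b : ℤˣ, sg b * sg b = 2 := by
  simp [sg_sq]

lemma mean_comp (f : (ι → ℤˣ) → ℤˣ) (h : (κ → ℤˣ) → ℤˣ) (hh : mean h = 0) : mean (comp f h) = 0 := by
  have h0 := E_comp_mul f h (fun _ => 1) (fun _ _ => 1)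
  simp only [Finset.prod_const_one, mul_one] at h0
  unfold mean
  rw [h0]
  apply Finset.sum_eq_zero; intro S _
  by_cases he : Even S.card
  · simp [he, sg]
  · have hne : S.Nonempty := by
      rw [Finset.nonempty_iff_ne_empty]; rintro rfl; simp at he
    obtain ⟨i, hi⟩ := hne
    have : ∏ i, E (fun z : κ → ℤˣ => if i ∈ S then sg (h z) else 1) = 0 := by
      apply Finset.prod_eq_zero (Finset.mem_univ i)
      simp only [hi, if_true]
      exact hh
    rw [this]; ring

lemma coeff_comp_none (f : (ι → ℤˣ) → ℤˣ) (h : (κ → ℤˣ) → ℤˣ) (hh : mean h = 0) :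
    coeff (comp f h) {none} = coeff f ∅ := by
  have h0 := E_comp_mul f h (fun b => sg b) (fun _ _ => 1)
  simp only [Finset.prod_const_one, mul_one] at h0
  rw [coeff_eq (ι := Option (ι × κ))]
  have h1 : (fun x : Option (ι × κ) → ℤˣ => sg (comp f h x) * chi {none} x) =
      fun x => sg (comp f h x) * sg (x none) := by funext x; simp [chi]
  rw [h1, h0, Finset.sum_eq_single ∅]
  · have h2 : E (fun _ : κ → ℤˣ => (1:ℝ)) = 1 := E_const 1
    simp [sg_sq, h2]
  · intro S _ hS
    obtain ⟨i, hi⟩ := Finset.nonempty_iff_ne_empty.mpr hS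
    have : ∏ i, E (fun z : κ → ℤˣ => if i ∈ S then sg (h z) else 1) = 0 := by
      apply Finset.prod_eq_zero (Finset.mem_univ i)
      simp only [hi, if_true]
      exact hh
    rw [this]; ring
  · intro h; exact absurd (Finset.mem_univ _) h

lemma coeff_comp_some (f : (ι → ℤˣ) → ℤˣ) (h : (κ → ℤˣ) → ℤˣ) (hh : mean h = 0) (i : ι) (j : κ) :
    coeff (comp f h) {some (i, j)} = coeff f {i} * coeff h {j} := by
  have h0 := E_comp_mul f h (fun _ => 1) (fun i' z => if i' = i then sg (z j) else 1)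
  rw [coeff_eq]
  have h1 : (fun x : Option (ι × κ) → ℤˣ => sg (comp f h x) * chi {some (i, j)} x) =
      fun x => sg (comp f h x) * (1 * ∏ i', (fun (i' : ι) (z : κ → ℤˣ) => if i' = i then sg (z j) else 1) i'
        (fun j => x (some (i', j)))) := by
    funext x
    simp [chi]
  rw [h1]
  simp only [mul_one] at h0 ⊢
  rw [h0, Finset.sum_eq_single {i}]
  · have h3 : ∏ i', E (fun z : κ → ℤˣ => (if i' ∈ ({i} : Finset ι) then sg (h z) else 1) *
        (if i' = i then sg (z j) else 1)) = coeff h {j} := by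
      rw [Finset.prod_eq_single i]
      · rw [coeff_eq]; congr 1; funext z; simp [chi]
      · intro i' _ hne
        simp [hne, E_const]
      · intro h; exact absurd (Finset.mem_univ _) h
    rw [h3]
    simp
  · intro S _ hS
    by_cases he : Even S.card
    · simp [he, sg]
    · have : ∃ i' ∈ S, i' ≠ i := by
        by_contra hcon
        push Not at hcon
        have hne : S.Nonempty := by
          rw [Finset.nonempty_iff_ne_empty]; rintro rfl; simp at he
        obtain ⟨a, ha⟩ := hne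
        apply hS
        ext b
        rw [Finset.mem_singleton]
        constructor
        · exact hcon b
        · rintro rfl; rw [← hcon a ha]; exact ha
      obtain ⟨i', hi', hne⟩ := this
      have : ∏ i', E (fun z : κ → ℤˣ => (if i' ∈ S then sg (h z) else 1) *
          (if i' = i then sg (z j) else 1)) = 0 := by
        apply Finset.prod_eq_zero (Finset.mem_univ i')
        simp only [hi', if_true, hne, if_false, mul_one]
        exact hh
      rw [this]; ring
  · intro h; exact absurd (Finset.mem_univ _) h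

lemma levelOne_comp (f : (ι → ℤˣ) → ℤˣ) (h : (κ → ℤˣ) → ℤˣ) (hh : mean h = 0) :
    levelOne (comp f h) = coeff f ∅ + levelOne f * levelOne h := by
  unfold levelOne
  rw [Fintype.sum_option, coeff_comp_none f h hh, Fintype.sum_prod_type]
  congr 1
  rw [Finset.sum_mul]
  apply Finset.sum_congr rfl; intro i _
  rw [Finset.mul_sum]
  apply Finset.sum_congr rfl; intro j _
  exact coeff_comp_some f h hh i j

/-- the flipped function `x ↦ - f (-x)` -/
def flip (f : (ι → ℤˣ) → ℤˣ) (x : ι → ℤˣ) : ℤˣ := - f (fun i => - x i)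

lemma coeff_flip (f : (ι → ℤˣ) → ℤˣ) (S : Finset ι) : coeff (flip f) S = - (-1) ^ S.card * coeff f S := by
  unfold coeff
  have h1 : ∑ x : ι → ℤˣ, sg (flip f x) * ∏ i ∈ S, sg (x i) =
      ∑ x : ι → ℤˣ, - (-1) ^ S.card * (sg (f x) * ∏ i ∈ S, sg (x i)) := by
    apply Fintype.sum_equiv (Equiv.piCongrRight (fun _ : ι => Equiv.neg ℤˣ))
    intro x
    have h2 : ∏ i ∈ S, sg ((Equiv.piCongrRight (fun _ : ι => Equiv.neg ℤˣ)) x i) = (-1) ^ S.card * ∏ i ∈ S, sg (x i) := by
      exact chi_neg S x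
    rw [h2]
    unfold flip
    rw [sg_neg]
    have h3 : ((Equiv.piCongrRight (fun _ : ι => Equiv.neg ℤˣ)) x) = fun i => - x i := rfl
    rw [h3]
    have h4 : ((-1:ℝ) ^ S.card) * ((-1) ^ S.card) = 1 := by rw [← mul_pow]; simp
    linear_combination ((sg (f (fun i => - x i)) * ∏ i ∈ S, sg (x i))) * (h4)
  rw [h1, ← Finset.mul_sum, mul_div_assoc]

lemma fdeg_flip (f : (ι → ℤˣ) → ℤˣ) : fdeg (flip f) = fdeg f := by
  unfold fdeg
  congr 1
  ext S
  simp [coeff_flip]

lemma levelOne_flip (f : (ι → ℤˣ) → ℤˣ) : levelOne (flip f) = levelOne f := by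
  unfold levelOne
  apply Finset.sum_congr rfl; intro i _
  rw [coeff_flip]; simp

end compose

section bound
variable {ι : Type} [Fintype ι] [DecidableEq ι]

/-- flip coordinate `i` -/
def flipAt (i : ι) (x : ι → ℤˣ) : ι → ℤˣ := Function.update x i (- x i)

lemma flipAt_flipAt (i : ι) (x : ι → ℤˣ) : flipAt i (flipAt i x) = x := by
  unfold flipAt; simp

lemma E_flipAt (i : ι) (g : (ι → ℤˣ) → ℝ) : E (fun x => g (flipAt i x)) = E g := by
  unfold E
  congr 1
  exact Fintype.sum_equiv ⟨flipAt i, flipAt i, flipAt_flipAt i, flipAt_flipAt i⟩ _ _ (fun x => rfl)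

lemma chi_flipAt (i : ι) (S : Finset ι) (x : ι → ℤˣ) :
    chi S (flipAt i x) = (if i ∈ S then -1 else 1) * chi S x := by
  unfold chi flipAt
  split_ifs with h
  · rw [← Finset.mul_prod_erase S _ h, ← Finset.mul_prod_erase S (fun i => sg (x i)) h]
    simp only [Function.update_self, sg_neg]
    have : ∏ j ∈ S.erase i, sg (Function.update x i (- x i) j) = ∏ j ∈ S.erase i, sg (x j) := by
      apply Finset.prod_congr rfl; intro j hj
      rw [Function.update_of_ne (Finset.ne_of_mem_erase hj)]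
    rw [this]; ring
  · rw [one_mul]
    apply Finset.prod_congr rfl; intro j hj
    rw [Function.update_of_ne]; rintro rfl; exact h hj

lemma coeff_single_le (f : (ι → ℤˣ) → ℤˣ) (i : ι) :
    coeff f {i} ≤ ∑ S : Finset ι, if i ∈ S then (coeff f S) ^ 2 else 0 := by
  set g : (ι → ℤˣ) → ℝ := fun x => sg (f x) - sg (f (flipAt i x)) with hg
  have hpar := parseval g
  have hcoef : ∀ S : Finset ι, E (fun y => g y * chi S y) = if i ∈ S then 2 * coeff f S else 0 := by
    intro S
    have h1 : (fun y => g y * chi S y) = fun y => sg (f y) * chi S y + (-1) * (sg (f (flipAt i y)) * chi S y) := by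
      funext y; simp only [hg]; ring
    rw [h1, E_add, E_smul]
    have h2 : E (fun y => sg (f (flipAt i y)) * chi S y) = (if i ∈ S then -1 else 1) * coeff f S := by
      rw [← E_flipAt i (fun y => sg (f (flipAt i y)) * chi S y)]
      simp only [flipAt_flipAt, chi_flipAt]
      rw [coeff_eq, ← E_smul]
      congr 1; funext x; ring
    rw [h2, ← coeff_eq]
    split_ifs <;> ring
  have h2 : 2 * coeff f {i} ≤ E (fun x => g x * g x) / 2 := by
    have h3 : 2 * coeff f {i} = E (fun x => g x * sg (x i)) := by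
      have := hcoef {i}
      simp only [Finset.mem_singleton, if_true] at this
      rw [← this]; congr 1; funext x; simp [chi]
    rw [h3]
    have h4 : E (fun x => g x * g x) / 2 = E (fun x => (1/2) * (g x * g x)) := by
      rw [E_smul]; ring
    rw [h4]
    apply E_mono
    intro x
    simp only [hg]
    rcases sg_cases (f x) with h5 | h5 <;> rcases sg_cases (f (flipAt i x)) with h6 | h6 <;>
      rcases sg_cases (x i) with h7 | h7 <;> simp only [h5, h6, h7] <;> norm_num
  rw [hpar] at h2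
  have h5 : ∑ S : Finset ι, (E (fun y => g y * chi S y)) ^ 2 = 4 * ∑ S : Finset ι, if i ∈ S then (coeff f S) ^ 2 else 0 := by
    rw [Finset.mul_sum]
    apply Finset.sum_congr rfl; intro S _
    rw [hcoef]; split_ifs <;> ring
  rw [h5] at h2
  linarith

lemma sum_coeff_sq (f : (ι → ℤˣ) → ℤˣ) : ∑ S : Finset ι, (coeff f S) ^ 2 = 1 := by
  have := parseval (fun x => sg (f x))
  simp only [sg_sq] at this
  rw [E_const] at this
  exact this.symm

lemma levelOne_le (f : (ι → ℤˣ) → ℤˣ) : levelOne f ≤ fdeg f := by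
  unfold levelOne
  calc ∑ i, coeff f {i} ≤ ∑ i, ∑ S : Finset ι, (if i ∈ S then (coeff f S) ^ 2 else 0) :=
        Finset.sum_le_sum (fun i _ => coeff_single_le f i)
    _ = ∑ S : Finset ι, (S.card : ℝ) * (coeff f S) ^ 2 := by
        rw [Finset.sum_comm]
        apply Finset.sum_congr rfl; intro S _
        rw [← Finset.sum_filter, Finset.sum_const, nsmul_eq_mul]
        simp
    _ ≤ ∑ S : Finset ι, (fdeg f : ℝ) * (coeff f S) ^ 2 := by
        apply Finset.sum_le_sum; intro S _
        by_cases h : coeff f S = 0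
        · simp [h]
        · have : S.card ≤ fdeg f := by
            unfold fdeg
            exact Finset.le_sup (f := Finset.card) (Finset.mem_filter.mpr ⟨Finset.mem_univ _, h⟩)
          have : (S.card : ℝ) ≤ fdeg f := by exact_mod_cast this
          exact mul_le_mul_of_nonneg_right this (sq_nonneg _)
    _ = fdeg f := by rw [← Finset.mul_sum, sum_coeff_sq, mul_one]

end bound

section transport
variable {ι : Type} [Fintype ι] [DecidableEq ι]

/-- the same function, with the variables renamed by `Fin n` -/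
def rename {n : ℕ} (e : ι ≃ Fin n) (f : (ι → ℤˣ) → ℤˣ) (x : Fin n → ℤˣ) : ℤˣ := f (fun i => x (e i))

lemma E_rename {n : ℕ} (e : ι ≃ Fin n) (g : (ι → ℤˣ) → ℝ) :
    E (fun x : Fin n → ℤˣ => g (fun i => x (e i))) = E g := by
  unfold E
  have h1 : Fintype.card (Fin n) = Fintype.card ι := (Fintype.card_congr e).symm
  rw [h1]
  congr 1
  exact Fintype.sum_equiv (Equiv.arrowCongr e.symm (Equiv.refl ℤˣ)) _ _ (fun x => rfl)

lemma coeff_rename {n : ℕ} (e : ι ≃ Fin n) (f : (ι → ℤˣ) → ℤˣ) (S : Finset ι) :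
    coeff (rename e f) (S.map e.toEmbedding) = coeff f S := by
  rw [coeff_eq, coeff_eq, ← E_rename e]
  congr 1; funext x
  simp [rename, chi]

lemma mean_rename {n : ℕ} (e : ι ≃ Fin n) (f : (ι → ℤˣ) → ℤˣ) : mean (rename e f) = mean f := by
  rw [← coeff_empty, ← coeff_empty, ← coeff_rename e f ∅]; simp

lemma levelOne_rename {n : ℕ} (e : ι ≃ Fin n) (f : (ι → ℤˣ) → ℤˣ) :
    levelOne (rename e f) = levelOne f := by
  unfold levelOne
  symm
  apply Fintype.sum_equiv e
  intro i
  rw [← coeff_rename e f {i}]; simp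

lemma fdeg_rename_le {n : ℕ} (e : ι ≃ Fin n) (f : (ι → ℤˣ) → ℤˣ) : fdeg (rename e f) ≤ fdeg f := by
  rw [fdeg_le_iff]
  exact V_lift (ι := Fin n) (κ := ι) e.toEmbedding ((fdeg_le_iff f _).mp le_rfl)

end transport

/-- The set of level-one sums of Boolean functions of degree at most `d`. -/
def sums (d : ℕ) : Set ℝ :=
  {s : ℝ | ∃ n : ℕ, 1 ≤ n ∧ ∃ f : (Fin n → ℤˣ) → ℤˣ, fdeg f ≤ d ∧ levelOne f = s}

/-- `M d`: the supremum of the level-one sums over all `n ≥ 1` and all Boolean functions on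
`{-1,1}^n` of degree at most `d`. -/
noncomputable def M (d : ℕ) : ℝ := sSup (sums d)

lemma sums_bdd (d : ℕ) : BddAbove (sums d) := by
  refine ⟨d, ?_⟩
  rintro s ⟨n, _, f, hf, rfl⟩
  exact (levelOne_le f).trans (by exact_mod_cast hf)

lemma le_M {n d : ℕ} (hn : 1 ≤ n) (f : (Fin n → ℤˣ) → ℤˣ) (hf : fdeg f ≤ d) : levelOne f ≤ M d :=
  le_csSup (sums_bdd d) ⟨n, hn, f, hf, rfl⟩

lemma E_chi_self {ι : Type} [Fintype ι] [DecidableEq ι] (S : Finset ι) : E (fun x : ι → ℤˣ => chi S x * chi S x) = 1 := by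
  rw [E_chi_mul]; simp

/-- the dictator -/
def dict (x : Fin 1 → ℤˣ) : ℤˣ := x 0

lemma dict_facts : mean dict = 0 ∧ fdeg dict ≤ 1 ∧ levelOne dict = 1 := by
  have h : (fun x : Fin 1 → ℤˣ => sg (dict x)) = chi {0} := by funext x; simp [dict, chi]
  refine ⟨?_, ?_, ?_⟩
  · unfold mean; rw [h, E_chi]; simp
  · rw [fdeg_le_iff, h]; exact chi_mem (by simp)
  · unfold levelOne
    simp only [Finset.univ_unique, Fin.default_eq_zero, Finset.sum_singleton]
    rw [coeff_eq]
    have h2 : (fun x : Fin 1 → ℤˣ => sg (dict x) * chi {0} x) = fun x => chi {0} x * chi {0} x := by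
      funext x; rw [← congrFun h x]
    rw [h2, E_chi_self]

lemma M_ge_one {d : ℕ} (hd : 1 ≤ d) : 1 ≤ M d := by
  rw [← dict_facts.2.2]; exact le_M le_rfl dict (dict_facts.2.1.trans hd)

lemma sums_nonempty (d : ℕ) : (sums d).Nonempty := by
  refine ⟨levelOne (fun _ : Fin 1 → ℤˣ => (1 : ℤˣ)), 1, le_rfl, _, ?_, rfl⟩
  rw [fdeg_le_iff]
  have : (fun _ : Fin 1 → ℤˣ => sg 1) = chi ∅ := by funext x; simp [chi, sg]
  rw [this]; exact chi_mem (by simp)

lemma M_le (d : ℕ) : M d ≤ d := by
  apply csSup_le (sums_nonempty d)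
  rintro s ⟨n, _, f, hf, rfl⟩
  exact (levelOne_le f).trans (by exact_mod_cast hf)

lemma M_mono {a b : ℕ} (h : a ≤ b) : M a ≤ M b := by
  apply csSup_le_csSup (sums_bdd b) (sums_nonempty a)
  rintro s ⟨n, hn, f, hf, rfl⟩
  exact ⟨n, hn, f, hf.trans h, rfl⟩

/-- degrees reached by the iteration -/
def Dk (d : ℕ) : ℕ → ℕ
  | 0 => 1
  | k + 1 => d * Dk d k + 1

lemma Dk_le {d : ℕ} (hd : 2 ≤ d) (k : ℕ) : Dk d k + 1 ≤ 2 * d ^ k := by
  induction k with
  | zero => simp [Dk]
  | succ k ih =>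
    have h1 : d * (Dk d k + 1) ≤ d * (2 * d ^ k) := Nat.mul_le_mul_left d ih
    simp only [Dk, pow_succ]
    nlinarith

lemma iterate {n : ℕ} (f : (Fin n → ℤˣ) → ℤˣ) {d : ℕ} (hf : fdeg f ≤ d) (h0 : 0 ≤ coeff f ∅)
    (hs : 0 ≤ levelOne f) (k : ℕ) :
    ∃ m : ℕ, 1 ≤ m ∧ ∃ h : (Fin m → ℤˣ) → ℤˣ, mean h = 0 ∧ fdeg h ≤ Dk d k ∧ levelOne f ^ k ≤ levelOne h := by
  induction k with
  | zero => exact ⟨1, le_rfl, dict, dict_facts.1, dict_facts.2.1, by simp [dict_facts.2.2]⟩
  | succ k ih =>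
    obtain ⟨m, hm, h, hmean, hdeg, hlev⟩ := ih
    let e := Fintype.equivFin (Option (Fin n × Fin m))
    refine ⟨Fintype.card (Option (Fin n × Fin m)), ?_, rename e (comp f h), ?_, ?_, ?_⟩
    · rw [Fintype.card_option]; omega
    · rw [mean_rename, mean_comp f h hmean]
    · exact (fdeg_rename_le e _).trans (comp_mem f h hf hdeg)
    · rw [levelOne_rename, levelOne_comp f h hmean, pow_succ]
      nlinarith

lemma growth {n : ℕ} (hn : 1 ≤ n) (f : (Fin n → ℤˣ) → ℤˣ) {d : ℕ} (hd : 2 ≤ d) (hf : fdeg f ≤ d)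
    (hs : 1 ≤ levelOne f) :
    ∃ c : ℝ, 0 < c ∧ ∀ D : ℕ, 1 ≤ D → c * (D : ℝ) ^ (Real.log (levelOne f) / Real.log d) ≤ M D := by
  wlog h0 : 0 ≤ coeff f ∅ generalizing f with H
  · have h1 := H (flip f) (by rw [fdeg_flip]; exact hf) (by rw [levelOne_flip]; exact hs)
      (by rw [coeff_flip]; simp; push Not at h0; exact h0.le)
    rw [levelOne_flip] at h1
    exact h1
  set s := levelOne f with hsdef
  set γ := Real.log s / Real.log d with hγ
  have hd1 : (1:ℝ) < d := by exact_mod_cast hd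
  have hlogd : 0 < Real.log d := Real.log_pos hd1
  have hs0 : 0 < s := by linarith
  have hγ0 : 0 ≤ γ := div_nonneg (Real.log_nonneg hs) hlogd.le
  have hdγ : (d:ℝ) ^ γ = s := by
    rw [Real.rpow_def_of_pos (by linarith), hγ, mul_div_cancel₀ _ hlogd.ne', Real.exp_log hs0]
  refine ⟨1 / ((2:ℝ) ^ γ * s), by positivity, ?_⟩
  intro D hD
  set k := Nat.log d (D / 2) with hk
  have hDk : Dk d k ≤ D := by
    by_cases hz : D / 2 = 0
    · have : k = 0 := by rw [hk, hz]; simp
      rw [this]; simpa [Dk] using hD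
    · have h1 : d ^ k ≤ D / 2 := Nat.pow_log_le_self d hz
      have h2 := Dk_le hd k
      omega
  have hlt : D < 2 * d ^ (k + 1) := by
    have h1 : D / 2 < d ^ (k + 1) := Nat.lt_pow_succ_log_self (by omega) _
    omega
  obtain ⟨m, hm, h, _, hdeg, hlev⟩ := iterate f hf h0 (by linarith) k
  have hM : s ^ k ≤ M D := hlev.trans (le_M hm h (hdeg.trans hDk))
  have hup : (D:ℝ) ^ γ ≤ (2:ℝ) ^ γ * s ^ (k + 1) := by
    have h1 : (D:ℝ) ≤ 2 * (d:ℝ) ^ (k + 1) := by exact_mod_cast hlt.le
    calc (D:ℝ) ^ γ ≤ (2 * (d:ℝ) ^ (k + 1)) ^ γ := Real.rpow_le_rpow (by positivity) h1 hγ0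
      _ = (2:ℝ) ^ γ * ((d:ℝ) ^ (k + 1)) ^ γ := Real.mul_rpow (by norm_num) (by positivity)
      _ = (2:ℝ) ^ γ * s ^ (k + 1) := by
        rw [← Real.rpow_natCast (d:ℝ) (k+1), ← Real.rpow_mul (by positivity), mul_comm ((k+1 : ℕ):ℝ) γ,
          Real.rpow_mul (by positivity), hdγ, Real.rpow_natCast]
  calc 1 / ((2:ℝ) ^ γ * s) * (D:ℝ) ^ γ ≤ 1 / ((2:ℝ) ^ γ * s) * ((2:ℝ) ^ γ * s ^ (k + 1)) := by
        apply mul_le_mul_of_nonneg_left hup; positivity
    _ = s ^ k := by
        rw [pow_succ]; field_simp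
    _ ≤ M D := hM

section khinchine

lemma sum_cons (n : ℕ) (F : (Fin (n+1) → ℤˣ) → ℝ) :
    ∑ x, F x = ∑ b : ℤˣ, ∑ y : Fin n → ℤˣ, F (Fin.cons b y) := by
  rw [← Fintype.sum_prod_type' (f := fun b (y : Fin n → ℤˣ) => F (Fin.cons b y))]
  exact (Fintype.sum_equiv (Fin.consEquiv (fun _ => ℤˣ)) _ _ (fun x => rfl)).symm

/-- the sum of the coordinates -/
def A {n : ℕ} (x : Fin n → ℤˣ) : ℝ := ∑ i, sg (x i)

lemma A_cons {n : ℕ} (b : ℤˣ) (y : Fin n → ℤˣ) : A (Fin.cons b y : Fin (n+1) → ℤˣ) = sg b + A y := by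
  unfold A; rw [Fin.sum_univ_succ]; simp

lemma moments (n : ℕ) : ∑ x : Fin n → ℤˣ, A x ^ 2 = n * 2 ^ n ∧
    ∑ x : Fin n → ℤˣ, A x ^ 4 = (3 * (n:ℝ) ^ 2 - 2 * n) * 2 ^ n := by
  induction n with
  | zero => simp [A]
  | succ n ih =>
    obtain ⟨h2, h4⟩ := ih
    have hc : ∑ x : Fin n → ℤˣ, (1:ℝ) = 2 ^ n := by simp
    constructor
    · rw [sum_cons]
      simp only [A_cons]
      rw [Finset.sum_comm]
      have : ∀ y : Fin n → ℤˣ, ∑ b : ℤˣ, (sg b + A y) ^ 2 = 2 * A y ^ 2 + 2 * 1 := by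
        intro y; simp [sg]; ring
      simp only [this]
      rw [Finset.sum_add_distrib, ← Finset.mul_sum, ← Finset.mul_sum, h2, hc]
      push_cast; ring
    · rw [sum_cons]
      simp only [A_cons]
      rw [Finset.sum_comm]
      have : ∀ y : Fin n → ℤˣ, ∑ b : ℤˣ, (sg b + A y) ^ 4 = 2 * A y ^ 4 + 12 * A y ^ 2 + 2 * 1 := by
        intro y; simp [sg]; ring
      simp only [this]
      rw [Finset.sum_add_distrib, Finset.sum_add_distrib, ← Finset.mul_sum, ← Finset.mul_sum, ← Finset.mul_sum, h2, h4, hc]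
      push_cast; ring

/-- majority -/
noncomputable def maj {n : ℕ} (x : Fin n → ℤˣ) : ℤˣ := if 0 ≤ A x then 1 else -1

lemma levelOne_maj (n : ℕ) (hn : 1 ≤ n) : Real.sqrt (n / 3) ≤ levelOne (maj (n := n)) := by
  have h1 : levelOne (maj (n := n)) = E (fun x : Fin n → ℤˣ => |A x|) := by
    unfold levelOne
    have : ∀ i : Fin n, coeff maj {i} = E (fun x : Fin n → ℤˣ => sg (maj x) * sg (x i)) := by
      intro i; rw [coeff_eq]; congr 1; funext x; simp [chi]
    simp only [this]
    rw [← E_sum]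
    congr 1; funext x
    rw [← Finset.mul_sum]
    unfold maj
    split_ifs with h
    · rw [sg_one, one_mul, abs_of_nonneg h]; rfl
    · rw [sg_neg, sg_one, abs_of_neg (not_le.mp h)]; unfold A; ring
  rw [h1]
  have hn0 : (0:ℝ) < n := by exact_mod_cast hn
  set l := Real.sqrt (3 * n) with hl
  have hl0 : 0 < l := Real.sqrt_pos.mpr (by positivity)
  have hl2 : l ^ 2 = 3 * n := Real.sq_sqrt (by positivity)
  have hpt : ∀ a : ℝ, (3 / (2 * l)) * a ^ 2 - (1 / (2 * l ^ 3)) * a ^ 4 ≤ |a| := by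
    intro a
    have h3 : (3 / (2 * l)) * a ^ 2 - (1 / (2 * l ^ 3)) * a ^ 4 = (3 * l ^ 2 * |a| ^ 2 - |a| ^ 4) / (2 * l ^ 3) := by
      have e1 : |a| ^ 2 = a ^ 2 := sq_abs a
      have e2 : |a| ^ 4 = a ^ 4 := by
        calc |a| ^ 4 = (|a| ^ 2) ^ 2 := by ring
          _ = a ^ 4 := by rw [e1]; ring
      rw [e1, e2]; field_simp
    rw [h3, div_le_iff₀ (by positivity)]
    have hb : 0 ≤ |a| := abs_nonneg a
    have : 0 ≤ |a| * (|a| - l) ^ 2 * (|a| + 2 * l) := by positivity
    nlinarith [this]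
  have h2 : E (fun x : Fin n → ℤˣ => (3 / (2 * l)) * A x ^ 2 + (-(1 / (2 * l ^ 3))) * A x ^ 4) ≤
      E (fun x : Fin n → ℤˣ => |A x|) := by
    apply E_mono; intro x
    have := hpt (A x); linarith
  refine le_trans ?_ h2
  rw [E_add, E_smul, E_smul]
  have hm2 : E (fun x : Fin n → ℤˣ => A x ^ 2) = n := by
    unfold E; rw [(moments n).1]; simp
  have hm4 : E (fun x : Fin n → ℤˣ => A x ^ 4) = 3 * (n:ℝ)^2 - 2 * n := by
    unfold E; rw [(moments n).2]; simp
  rw [hm2, hm4]
  have hsq : Real.sqrt (n / 3) = l / 3 := by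
    rw [hl, Real.sqrt_eq_iff_mul_self_eq (by positivity) (by positivity)]
    have := hl2
    rw [hl] at this
    nlinarith
  rw [hsq]
  have hl3 : l ^ 3 = 3 * n * l := by rw [pow_succ, hl2]
  have key : 3 / (2 * l) * (n:ℝ) + -(1 / (2 * l ^ 3)) * (3 * (n:ℝ) ^ 2 - 2 * n) =
      l / 3 + 1 / (3 * l) := by
    rw [hl3]
    have hnl : (n:ℝ) = l ^ 2 / 3 := by rw [hl2]; ring
    rw [hnl]
    field_simp
    ring
  rw [key]
  have : 0 < 1 / (3 * l) := by positivity
  linarith

lemma M_ge_sqrt (d : ℕ) (hd : 1 ≤ d) : Real.sqrt (d / 3) ≤ M d := by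
  refine (levelOne_maj d hd).trans (le_M hd maj ?_)
  rw [fdeg_le_iff]
  apply mem_of_coeff_zero
  intro S hS
  have : S.card ≤ d := by simpa using Finset.card_le_univ S
  omega

end khinchine

/-- The square-root conjecture with constant one. -/
def StrongForm : Prop :=
  ∀ (n : ℕ) (f : (Fin n → ℤˣ) → ℤˣ), 1 ≤ n → levelOne f ≤ Real.sqrt (fdeg f)

/-- The weaker form, with an absolute constant. -/
def WeakForm : Prop :=
  ∃ C : ℝ, ∀ (n : ℕ) (f : (Fin n → ℤˣ) → ℤˣ), 1 ≤ n → levelOne f ≤ C * Real.sqrt (fdeg f)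

section final

noncomputable def L (d : ℕ) : ℝ := Real.log (M d) / Real.log d

lemma logd_pos {d : ℕ} (hd : 2 ≤ d) : 0 < Real.log d := Real.log_pos (by exact_mod_cast hd)

lemma M_pos {d : ℕ} (hd : 1 ≤ d) : 0 < M d := lt_of_lt_of_le one_pos (M_ge_one hd)

lemma L_le_one {d : ℕ} (hd : 2 ≤ d) : L d ≤ 1 := by
  unfold L
  rw [div_le_one (logd_pos hd)]
  exact Real.log_le_log (M_pos (by omega)) (M_le d)

def LS : Set ℝ := {l | ∃ d : ℕ, 2 ≤ d ∧ L d = l}

lemma LS_bdd : BddAbove LS := ⟨1, by rintro l ⟨d, hd, rfl⟩; exact L_le_one hd⟩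
lemma LS_ne : LS.Nonempty := ⟨L 2, 2, le_rfl, rfl⟩

noncomputable def alpha : ℝ := sSup LS

lemma L_le_alpha {d : ℕ} (hd : 2 ≤ d) : L d ≤ alpha := le_csSup LS_bdd ⟨d, hd, rfl⟩

lemma alpha_le_one : alpha ≤ 1 := csSup_le LS_ne (by rintro l ⟨d, hd, rfl⟩; exact L_le_one hd)

open Filter Topology in
lemma tendsto_const_div_log (a : ℝ) : Tendsto (fun d : ℕ => a / Real.log d) atTop (𝓝 0) := by
  have h1 : Tendsto (fun d : ℕ => Real.log d) atTop atTop :=
    Real.tendsto_log_atTop.comp tendsto_natCast_atTop_atTop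
  exact h1.const_div_atTop a

open Filter Topology in
lemma tendsto_L : Tendsto L atTop (𝓝 alpha) := by
  rw [tendsto_order]
  constructor
  · intro a ha
    -- find d0 with L d0 > a
    obtain ⟨l, ⟨d0, hd0, rfl⟩, hl⟩ := exists_lt_of_lt_csSup LS_ne ha
    by_cases ha0 : a < 0
    · filter_upwards [eventually_ge_atTop 2] with d hd
      have : 0 ≤ L d := div_nonneg (Real.log_nonneg (M_ge_one (by omega))) (logd_pos hd).le
      linarith
    push Not at ha0
    have hlog0 := logd_pos hd0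
    -- choose f with log (levelOne f) / log d0 > a
    have h1 : Real.exp (a * Real.log d0) < M d0 := by
      rw [← Real.lt_log_iff_exp_lt (M_pos (by omega))]
      unfold L at hl
      rwa [lt_div_iff₀ hlog0] at hl
    obtain ⟨s, ⟨n, hn, f, hf, rfl⟩, hs⟩ := exists_lt_of_lt_csSup (sums_nonempty d0) h1
    have hs1 : 1 ≤ levelOne f := by
      have : (1:ℝ) ≤ Real.exp (a * Real.log d0) := Real.one_le_exp (by positivity)
      linarith
    obtain ⟨c, hc, hgrow⟩ := growth hn f hd0 hf hs1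
    set γ := Real.log (levelOne f) / Real.log d0 with hγ
    have haγ : a < γ := by
      rw [hγ, lt_div_iff₀ hlog0, Real.lt_log_iff_exp_lt (by linarith)]
      exact hs
    have hlim : Tendsto (fun d : ℕ => Real.log c / Real.log d + γ) atTop (𝓝 (0 + γ)) :=
      (tendsto_const_div_log _).add tendsto_const_nhds
    rw [zero_add] at hlim
    filter_upwards [hlim.eventually (lt_mem_nhds haγ), eventually_ge_atTop 2] with d hd hd2
    have hlogd := logd_pos hd2
    have hdpos : (0:ℝ) < d := by positivity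
    have h2 := Real.log_le_log (by positivity) (hgrow d (by omega))
    rw [Real.log_mul hc.ne' (by positivity), Real.log_rpow hdpos] at h2
    have h3 : Real.log c / Real.log d + γ ≤ L d := by
      unfold L
      rw [le_div_iff₀ hlogd, add_mul, div_mul_cancel₀ _ hlogd.ne']
      exact h2
    linarith
  · intro a ha
    filter_upwards [eventually_ge_atTop 2] with d hd
    exact (L_le_alpha hd).trans_lt ha

lemma M_le_rpow {d : ℕ} (hd : 1 ≤ d) : M d ≤ (d:ℝ) ^ alpha := by
  rcases Nat.lt_or_ge d 2 with h | h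
  · have : d = 1 := by omega
    subst this
    simpa using M_le 1
  · have h1 := L_le_alpha h
    unfold L at h1
    rw [div_le_iff₀ (logd_pos h)] at h1
    have hdpos : (0:ℝ) < d := by positivity
    rw [← Real.log_le_log_iff (M_pos hd) (by positivity), Real.log_rpow hdpos]
    exact h1

open Filter Topology in
lemma half_le_alpha : 1 / 2 ≤ alpha := by
  have hlim : Tendsto (fun d : ℕ => 1/2 - (Real.log 3 / 2) / Real.log d) atTop (𝓝 (1/2 - 0)) :=
    tendsto_const_nhds.sub (tendsto_const_div_log _)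
  rw [sub_zero] at hlim
  refine le_of_tendsto hlim ?_
  filter_upwards [eventually_ge_atTop 2] with d hd
  refine le_trans ?_ (L_le_alpha hd)
  have hlogd := logd_pos hd
  have hdpos : (0:ℝ) < d := by positivity
  have h1 := Real.log_le_log (Real.sqrt_pos.mpr (by positivity)) (M_ge_sqrt d (by omega))
  rw [Real.log_sqrt (by positivity), Real.log_div hdpos.ne' (by norm_num)] at h1
  unfold L
  rw [le_div_iff₀ hlogd, sub_mul, div_mul_cancel₀ _ hlogd.ne']
  linarith

lemma strong_iff : StrongForm ↔ alpha = 1 / 2 := by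
  constructor
  · intro h
    apply le_antisymm _ half_le_alpha
    apply csSup_le LS_ne
    rintro l ⟨d, hd, rfl⟩
    have hM : M d ≤ Real.sqrt d := by
      apply csSup_le (sums_nonempty d)
      rintro s ⟨n, hn, f, hf, rfl⟩
      exact (h n f hn).trans (Real.sqrt_le_sqrt (by exact_mod_cast hf))
    unfold L
    rw [div_le_iff₀ (logd_pos hd)]
    have := Real.log_le_log (M_pos (by omega)) hM
    rw [Real.log_sqrt (by positivity)] at this
    linarith
  · intro h n f hn
    rcases Nat.eq_zero_or_pos (fdeg f) with h0 | h0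
    · have := levelOne_le f
      rw [h0] at this ⊢
      simpa using this
    · have h1 := (le_M hn f le_rfl).trans (M_le_rpow h0)
      rwa [h, ← Real.sqrt_eq_rpow] at h1

open Filter Topology in
lemma weak_iff : WeakForm ↔ alpha = 1 / 2 := by
  constructor
  · rintro ⟨C, hC⟩
    apply le_antisymm _ half_le_alpha
    set C' := max C 1 with hC'
    have hC'1 : 1 ≤ C' := le_max_right _ _
    have hlim : Tendsto (fun d : ℕ => Real.log C' / Real.log d + 1/2) atTop (𝓝 (0 + 1/2)) :=
      (tendsto_const_div_log _).add tendsto_const_nhds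
    rw [zero_add] at hlim
    refine le_of_tendsto_of_tendsto tendsto_L hlim ?_
    filter_upwards [eventually_ge_atTop 2] with d hd
    have hM : M d ≤ C' * Real.sqrt d := by
      apply csSup_le (sums_nonempty d)
      rintro s ⟨n, hn, f, hf, rfl⟩
      calc levelOne f ≤ C * Real.sqrt (fdeg f) := hC n f hn
        _ ≤ C' * Real.sqrt (fdeg f) := mul_le_mul_of_nonneg_right (le_max_left _ _) (Real.sqrt_nonneg _)
        _ ≤ C' * Real.sqrt d := mul_le_mul_of_nonneg_left (Real.sqrt_le_sqrt (by exact_mod_cast hf)) (by linarith)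
    have hlogd := logd_pos hd
    have hdpos : (0:ℝ) < d := by positivity
    have h1 := Real.log_le_log (M_pos (by omega)) hM
    rw [Real.log_mul (by positivity) (by positivity), Real.log_sqrt hdpos.le] at h1
    unfold L
    rw [div_le_iff₀ hlogd, add_mul, div_mul_cancel₀ _ hlogd.ne']
    linarith
  · intro h
    refine ⟨1, fun n f hn => ?_⟩
    rw [one_mul]
    exact strong_iff.mpr h n f hn

lemma dichotomy : StrongForm ∨ ∃ δ : ℝ, 0 < δ ∧ ∃ c : ℝ, 0 < c ∧
    ∀ d : ℕ, 1 ≤ d → c * (d : ℝ) ^ (1 / 2 + δ) ≤ M d := by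
  by_cases hS : StrongForm
  · exact Or.inl hS
  right
  unfold StrongForm at hS
  push Not at hS
  obtain ⟨n, f, hn, hf⟩ := hS
  set d := fdeg f with hd
  have h1 : levelOne f ≤ d := levelOne_le f
  have hd2 : 2 ≤ d := by
    by_contra hlt
    have : d = 0 ∨ d = 1 := by omega
    rcases this with h | h
    · rw [h] at hf h1; simp at hf h1; linarith
    · rw [h] at hf h1; simp at hf h1; linarith
  have hd1 : (1:ℝ) < d := by exact_mod_cast hd2
  have hsq1 : 1 < Real.sqrt d := by
    rw [show (1:ℝ) = Real.sqrt 1 by simp]; exact Real.sqrt_lt_sqrt (by norm_num) hd1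
  obtain ⟨c, hc, hg⟩ := growth hn f hd2 le_rfl (by linarith)
  have hlogd := logd_pos hd2
  have hγ : 1 / 2 < Real.log (levelOne f) / Real.log d := by
    rw [lt_div_iff₀ hlogd]
    have := Real.log_lt_log (by linarith) hf
    rw [Real.log_sqrt (by positivity)] at this
    linarith
  refine ⟨Real.log (levelOne f) / Real.log d - 1/2, by linarith, c, hc, ?_⟩
  intro D hD
  have := hg D hD
  rwa [show 1/2 + (Real.log (levelOne f) / Real.log d - 1/2) = Real.log (levelOne f) / Real.log d by ring]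

end final

/-- The strong and the weak form of the square-root conjecture are equivalent; if they fail then
`M d` exceeds a fixed power `d^(1/2+δ)`; and in every case the growth exponent of `M` exists, with
`M d ≤ d^α` for all `d`. -/
theorem result :
    (∀ d : ℕ, BddAbove (sums d)) ∧
    (StrongForm ↔ WeakForm) ∧
    (StrongForm ∨ ∃ δ : ℝ, 0 < δ ∧ ∃ c : ℝ, 0 < c ∧ ∀ d : ℕ, 1 ≤ d → c * (d : ℝ) ^ (1 / 2 + δ) ≤ M d) ∧
    ∃ α : ℝ, 1 / 2 ≤ α ∧ α ≤ 1 ∧
      (∀ d : ℕ, 1 ≤ d → M d ≤ (d : ℝ) ^ α) ∧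
      Filter.Tendsto (fun d : ℕ => Real.log (M d) / Real.log d) Filter.atTop (nhds α) ∧
      (StrongForm ↔ α = 1 / 2) ∧ (WeakForm ↔ α = 1 / 2) :=
  ⟨sums_bdd, strong_iff.trans weak_iff.symm, dichotomy,
    alpha, half_le_alpha, alpha_le_one, fun _ hd => M_le_rpow hd, tendsto_L, strong_iff, weak_iff⟩

end Vale.Agent.Results.P047.Exponent
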